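import Vale.Agent.P102.CircleExact

/-!
# P102: multiple correlations of a mixing map never approach the trivial bound

For bounded functions of modulus at most one, not all of them unimodular constants, the correlation
of far separated translates stays away from one in absolute value.
-/

noncomputable section

namespace Vale.Agent.Results.P102.CorrelationGap

open MeasureTheory Filter Topology
open Vale.Agent.P102

/-- The character of the circle with values in the complex numbers. -/
def chr (u : UnitAddCircle) : ℂ := (AddCircle.toCircle u : Circle)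

theorem chr_zero : chr 0 = 1 := by simp [chr]

theorem chr_add (u v : UnitAddCircle) : chr (u + v) = chr u * chr v := by
  simp [chr, AddCircle.toCircle_add]

theorem norm_chr (u : UnitAddCircle) : ‖chr u‖ = 1 := Circle.norm_coe _

theorem chr_sum {ι : Type*} (s : Finset ι) (u : ι → UnitAddCircle) :
    chr (∑ i ∈ s, u i) = ∏ i ∈ s, chr (u i) := by
  classical
  induction s using Finset.induction_on with
  | empty => simp [chr_zero]
  | insert a s ha ih => rw [Finset.sum_insert ha, Finset.prod_insert ha, chr_add, ih]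

theorem continuous_chr : Continuous chr :=
  continuous_subtype_val.comp AddCircle.continuous_toCircle

theorem re_chr_lt {u : UnitAddCircle} (hu : u ≠ 0) : (chr u).re < 1 := by
  have h1 := Complex.re_le_norm (chr u)
  rw [norm_chr] at h1
  refine lt_of_le_of_ne h1 fun he => hu ?_
  have h2 : chr u = chr 0 := by
    rw [chr_zero]
    refine Complex.ext (by simp [he]) ?_
    have h3 := Complex.sq_norm (chr u)
    rw [norm_chr, Complex.normSq_apply, he] at h3
    have h4 : (chr u).im * (chr u).im = 0 := by linarith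
    simpa using mul_self_eq_zero.1 h4
  exact AddCircle.injective_toCircle one_ne_zero (Subtype.ext h2)

/-- The phase of a complex number, as a point of the circle. -/
def phase (z : ℂ) : UnitAddCircle := ((Complex.arg z / (2 * Real.pi) : ℝ) : UnitAddCircle)

theorem measurable_phase : Measurable phase :=
  AddCircle.measurable_mk'.comp (Complex.measurable_arg.div_const _)

theorem norm_mul_chr_phase (z : ℂ) : (‖z‖ : ℂ) * chr (phase z) = z := by
  have e : (chr (phase z)) = Complex.exp (Complex.arg z * Complex.I) := by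
    rw [chr, phase, AddCircle.toCircle_apply_mk, Circle.coe_exp]
    have hp : (Real.pi : ℝ) ≠ 0 := Real.pi_ne_zero
    congr 2
    norm_cast
    field_simp
  rw [e]
  exact Complex.norm_mul_exp_arg_mul_I z

/-- Correlations of far separated translates stay away from the trivial bound. -/
theorem result {Ω : Type*} [MeasurableSpace Ω] (μ : Measure Ω) [IsProbabilityMeasure μ]
    (T : Ω ≃ᵐ Ω) (hT : MeasurePreserving T μ μ)
    (hmix : ∀ A B : Set Ω, MeasurableSet A → MeasurableSet B →
      Tendsto (fun n : ℕ => μ.real (A ∩ (T^[n]) ⁻¹' B)) atTop (𝓝 (μ.real A * μ.real B)))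
    (k : ℕ) (f : Fin k → Ω → ℂ) (hf : ∀ i, Measurable (f i)) (hf1 : ∀ i x, ‖f i x‖ ≤ 1)
    (hne : ∃ i, ¬ ∃ z : ℂ, ‖z‖ = 1 ∧ ∀ᵐ x ∂μ, f i x = z) :
    ∃ δ : ℝ, 0 < δ ∧ ∃ L : ℕ, ∀ t : Fin k → ℤ, (∀ i j, i ≠ j → (L : ℤ) ≤ |t i - t j|) →
      ‖∫ x, ∏ i, f i (⇑((T.toEquiv : Equiv.Perm Ω) ^ t i) x) ∂μ‖ ≤ 1 - δ := by
  classical
  have hM : IsMixing μ T := ⟨hT, hmix⟩
  show ∃ δ : ℝ, 0 < δ ∧ ∃ L : ℕ, ∀ t : Fin k → ℤ, (∀ i j, i ≠ j → (L : ℤ) ≤ |t i - t j|) →
      ‖∫ x, ∏ i, f i (shift T (t i) x) ∂μ‖ ≤ 1 - δ
  by_cases hall : ∀ i, ∀ᵐ x ∂μ, ‖f i x‖ = 1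
  swap
  · -- some function is not unimodular
    obtain ⟨i, hi⟩ := not_forall.1 hall
    have hint : Integrable (fun x => ‖f i x‖) μ :=
      integrable_of_abs_le (hf i).norm 1 fun x => by rw [abs_norm]; exact hf1 i x
    refine ⟨∫ x, (1 - ‖f i x‖) ∂μ, ?_, 0, fun t _ => ?_⟩
    · refine lt_of_le_of_ne (integral_nonneg fun x => sub_nonneg.2 (hf1 i x)) fun h => hi ?_
      have h' := (integral_eq_zero_iff_of_nonneg (fun x => sub_nonneg.2 (hf1 i x))
        ((integrable_const (1 : ℝ)).sub hint)).1 h.symm
      filter_upwards [h'] with x hx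
      simp only [Pi.zero_apply, sub_eq_zero] at hx
      exact hx.symm
    · rw [integral_sub (integrable_const (1 : ℝ)) hint, ← integral_comp_shift hM (hf i).norm (t i)]
      simp only [integral_const, probReal_univ, smul_eq_mul, one_mul, sub_sub_cancel]
      refine (norm_integral_le_integral_norm _).trans (integral_mono
        (integrable_of_abs_le (Finset.measurable_prod _ fun l _ =>
          (hf l).comp (mp_shift hM _).measurable).norm 1 fun x => ?_)
        (integrable_of_abs_le ((hf i).norm.comp (mp_shift hM (t i)).measurable) 1 fun x => ?_)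
        fun x => ?_)
      · rw [abs_norm, norm_prod]
        exact Finset.prod_le_one (fun _ _ => norm_nonneg _) fun l _ => hf1 l _
      · simp only [Function.comp_apply, abs_norm]
        exact hf1 i _
      · simp only [Function.comp_apply, norm_prod]
        rw [← Finset.mul_prod_erase _ (fun l => ‖f l (shift T (t l) x)‖) (Finset.mem_univ i)]
        exact mul_le_of_le_one_right (norm_nonneg (f i (shift T (t i) x)))
          (Finset.prod_le_one (fun l _ => norm_nonneg (f l (shift T (t l) x))) fun l _ => hf1 l _)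
  -- all functions are unimodular
  by_contra hcon
  simp only [not_exists, not_and, not_forall, not_le] at hcon
  have hcon' : ∀ L : ℕ, ∃ t : Fin k → ℤ, (∀ i j, i ≠ j → (L : ℤ) ≤ |t i - t j|) ∧
      1 - 1 / ((L : ℝ) + 1) < ‖∫ x, ∏ i, f i (shift T (t i) x) ∂μ‖ := fun L => by
    obtain ⟨t, ht, hlt⟩ := hcon (1 / ((L : ℝ) + 1)) (by positivity) L
    exact ⟨t, ht, hlt⟩
  choose tau htau hbig using hcon'
  set θ : Fin k → Ω → UnitAddCircle := fun i x => phase (f i x) with hθdef
  have hθ : ∀ i, Measurable (θ i) := fun i => measurable_phase.comp (hf i)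
  have hfae : ∀ i, ∀ᵐ x ∂μ, f i x = chr (θ i x) := fun i => (hall i).mono fun x hx => by
    have h := norm_mul_chr_phase (f i x)
    rw [hx, Complex.ofReal_one, one_mul] at h
    exact h.symm
  set Z : ℕ → ℂ := fun L => ∫ x, ∏ i, f i (shift T (tau L i) x) ∂μ with hZ
  set b : ℕ → UnitAddCircle := fun L => phase (Z L) with hb
  set u : ℕ → Ω → UnitAddCircle := fun L x => ∑ i, θ i (shift T (tau L i) x) - b L with hu
  have hum : ∀ L, Measurable (u L) := fun L =>
    (Finset.measurable_sum _ fun i _ => (hθ i).comp (mp_shift hM _).measurable).sub_const _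
  have hci : ∀ L, Integrable (fun x => chr (u L x)) μ := fun L =>
    Integrable.of_bound (continuous_chr.measurable.comp (hum L)).aestronglyMeasurable 1
      (Eventually.of_forall fun x => (norm_chr _).le)
  have hri : ∀ L, Integrable (fun x => (chr (u L x)).re) μ := fun L => (hci L).re
  have hre : ∀ L, ∫ x, (1 - (chr (u L x)).re) ∂μ = 1 - ‖Z L‖ := by
    intro L
    have hprod : ∀ᵐ x ∂μ, chr (u L x) * chr (b L) = ∏ i, f i (shift T (tau L i) x) := by
      filter_upwards [ae_all_iff.2 fun i =>
        (mp_shift hM (tau L i)).quasiMeasurePreserving.ae (hfae i)] with x hx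
      rw [← chr_add, hu]
      simp only [sub_add_cancel]
      rw [chr_sum]
      exact Finset.prod_congr rfl fun i _ => (hx i).symm
    have h1 : (∫ x, chr (u L x) ∂μ) * chr (b L) = Z L := by
      rw [← integral_mul_const, hZ]
      exact integral_congr_ae hprod
    have h2 : ∫ x, chr (u L x) ∂μ = (‖Z L‖ : ℂ) := by
      refine mul_right_cancel₀ (b := chr (b L)) (fun h0 => ?_) (h1.trans (norm_mul_chr_phase _).symm)
      have := norm_chr (b L)
      rw [h0, norm_zero] at this
      exact zero_ne_one this
    have h3 : ∫ x, (chr (u L x)).re ∂μ = ‖Z L‖ := by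
      have h4 := Complex.reCLM.integral_comp_comm (hci L)
      simp only [Complex.reCLM_apply] at h4
      rw [h4, h2, Complex.ofReal_re]
    rw [integral_sub (integrable_const (1 : ℝ)) (hri L), h3]
    simp
  have hlim : ∀ d : ℝ, 0 < d →
      Tendsto (fun L => μ.real {x | d ≤ ‖u L x‖}) atTop (𝓝 0) := by
    intro d hd
    -- a positive lower bound away from zero
    obtain ⟨c, hc0, hc⟩ : ∃ c > (0 : ℝ), ∀ v : UnitAddCircle, d ≤ ‖v‖ → c ≤ 1 - (chr v).re := by
      rcases Set.eq_empty_or_nonempty {v : UnitAddCircle | d ≤ ‖v‖} with he | hne'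
      · exact ⟨1, one_pos, fun v hv => absurd hv (Set.eq_empty_iff_forall_notMem.1 he v)⟩
      · obtain ⟨v₀, hv₀, hmin⟩ :=
          (isClosed_le continuous_const continuous_norm).isCompact.exists_isMinOn hne'
            ((continuous_const (y := (1 : ℝ))).sub
              (Complex.continuous_re.comp continuous_chr)).continuousOn
        refine ⟨1 - (chr v₀).re, ?_, fun v hv => hmin hv⟩
        refine sub_pos.2 (re_chr_lt fun h0 => ?_)
        rw [h0, Set.mem_setOf_eq, norm_zero] at hv₀
        linarith
    have h0 : Tendsto (fun L : ℕ => 1 / c * (1 / ((L : ℝ) + 1))) atTop (𝓝 0) := by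
      simpa using (tendsto_one_div_add_atTop_nhds_zero_nat (𝕜 := ℝ)).const_mul (1 / c)
    refine squeeze_zero (fun L => measureReal_nonneg) (fun L => ?_) h0
    have hm : MeasurableSet {x | d ≤ ‖u L x‖} := measurableSet_le measurable_const (hum L).norm
    have h1 : μ.real {x | d ≤ ‖u L x‖} ≤ ∫ x, 1 / c * (1 - (chr (u L x)).re) ∂μ := by
      rw [← integral_indicator_one' hm]
      refine integral_mono ((integrable_const 1).indicator hm)
        (((integrable_const (1 : ℝ)).sub (hri L)).const_mul _) fun x => ?_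
      by_cases hx : d ≤ ‖u L x‖
      · rw [Set.indicator_of_mem (show x ∈ {x | d ≤ ‖u L x‖} from hx), one_div_mul_eq_div,
          one_le_div hc0]
        exact hc _ hx
      · rw [Set.indicator_of_notMem (show x ∉ {x | d ≤ ‖u L x‖} from hx)]
        refine mul_nonneg (by positivity) (sub_nonneg.2 ?_)
        exact (Complex.re_le_norm _).trans (norm_chr _).le
    rw [integral_const_mul, hre] at h1
    refine h1.trans (mul_le_mul_of_nonneg_left ?_ (by positivity))
    linarith [hbig L, show Z L = ∫ x, ∏ i, f i (shift T (tau L i) x) ∂μ from rfl]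
  obtain ⟨i, hi⟩ := hne
  obtain ⟨v, hv⟩ := const_of_approx_multi hM tau htau θ hθ b hlim i
  exact hi ⟨chr v, norm_chr v, ((hfae i).and hv).mono fun x hx => hx.1.trans (by rw [hx.2])⟩

end Vale.Agent.Results.P102.CorrelationGap
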