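import Mathlib

/-!
# P102: few failures of multiple mixing

Translates of a centred indicator under a mixing map are almost orthogonal, so a Bessel type
inequality bounds, uniformly in the other set, the number of times at which a correlation is not
small. Peeling off one time then bounds the number of bad configurations in a product of finite sets.
-/

noncomputable section

namespace Vale.Agent.Results.P102.FewBadConfigurations

open MeasureTheory Filter Topology

variable {Ω : Type*} [MeasurableSpace Ω]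

/-- The integer powers of an invertible map preserve the measure. -/
theorem mp_zpow {μ : Measure Ω} {T : Ω ≃ᵐ Ω} (hT : MeasurePreserving T μ μ) (n : ℤ) :
    MeasurePreserving ⇑((T.toEquiv : Equiv.Perm Ω) ^ n) μ μ := by
  induction n with
  | zero => simpa using MeasurePreserving.id μ
  | succ i hi =>
    rw [zpow_add_one]
    exact hi.comp hT
  | pred i hi =>
    rw [zpow_sub_one]
    exact hi.comp (hT.symm T)

variable (μ : Measure Ω) [IsProbabilityMeasure μ]

/-- Bessel type inequality: a set correlates with few members of an almost independent family. -/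
theorem card_le_of_almost_indep {ι : Type*} (s : Finset ι) (E : ι → Set Ω) (a : ℝ) (B : Set Ω)
    (hE : ∀ i, MeasurableSet (E i)) (hB : MeasurableSet B) (ha : ∀ i, μ.real (E i) = a)
    {ε : ℝ} (hε : 0 < ε)
    (hind : ∀ i ∈ s, ∀ j ∈ s, i ≠ j → |μ.real (E i ∩ E j) - a * a| ≤ ε ^ 2 / 4)
    (hbad : ∀ i ∈ s, ε ≤ |μ.real (B ∩ E i) - μ.real B * a|) :
    (s.card : ℝ) ≤ 2 / ε ^ 2 := by
  classical
  rcases s.eq_empty_or_nonempty with rfl | hs
  · simp only [Finset.card_empty, Nat.cast_zero]
    positivity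
  have hM : (0 : ℝ) < s.card := by exact_mod_cast hs.card_pos
  let g : ι → Ω → ℝ := fun i x => (E i).indicator (fun _ => (1 : ℝ)) x - a
  let σ : ι → ℝ := fun i => if 0 ≤ μ.real (B ∩ E i) - μ.real B * a then 1 else -1
  have hσ : ∀ i, |σ i| = 1 := fun i => by dsimp only [σ]; split_ifs <;> simp
  have hind1 : ∀ i, Integrable (fun x => (E i).indicator (fun _ => (1 : ℝ)) x) μ :=
    fun i => (integrable_const 1).indicator (hE i)
  have hg : ∀ i, Integrable (g i) μ := fun i => (hind1 i).sub (integrable_const a)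
  have hgg : ∀ i j, g i * g j = fun x => (E i ∩ E j).indicator (fun _ => (1 : ℝ)) x
      - a * (E i).indicator (fun _ => (1 : ℝ)) x
      - a * (E j).indicator (fun _ => (1 : ℝ)) x + a * a := fun i j => funext fun x => by
    show ((E i).indicator (fun _ => (1 : ℝ)) x - a) * ((E j).indicator (fun _ => (1 : ℝ)) x - a) = _
    by_cases hi : x ∈ E i <;> by_cases hj : x ∈ E j <;>
      simp [hi, hj, Set.mem_inter_iff] <;> ring
  have hgi : ∀ i j, Integrable (fun x => g i x * g j x) μ := fun i j => by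
    show Integrable (g i * g j) μ
    rw [hgg]
    exact ((((integrable_const 1).indicator ((hE i).inter (hE j))).sub
      ((hind1 i).const_mul a)).sub ((hind1 j).const_mul a)).add (integrable_const _)
  have hval : ∀ i j, ∫ x, g i x * g j x ∂μ = μ.real (E i ∩ E j) - a * a := fun i j => by
    have e1 : Integrable (fun x => (E i ∩ E j).indicator (fun _ => (1 : ℝ)) x) μ :=
      (integrable_const (1 : ℝ)).indicator ((hE i).inter (hE j))
    have e2 : Integrable (fun x => (E i ∩ E j).indicator (fun _ => (1 : ℝ)) x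
        - a * (E i).indicator (fun _ => (1 : ℝ)) x) μ := e1.sub ((hind1 i).const_mul a)
    have e3 : Integrable (fun x => (E i ∩ E j).indicator (fun _ => (1 : ℝ)) x
        - a * (E i).indicator (fun _ => (1 : ℝ)) x - a * (E j).indicator (fun _ => (1 : ℝ)) x) μ :=
      e2.sub ((hind1 j).const_mul a)
    show ∫ x, (g i * g j) x ∂μ = _
    rw [hgg]
    beta_reduce
    rw [integral_add e3 (integrable_const _), integral_sub e2 ((hind1 j).const_mul a),
      integral_sub e1 ((hind1 i).const_mul a), integral_const_mul, integral_const_mul,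
      integral_indicator ((hE i).inter (hE j)), integral_indicator (hE i),
      integral_indicator (hE j)]
    simp [ha]
  let F : Ω → ℝ := fun x => ∑ i ∈ s, σ i * g i x
  have hF : Integrable F μ := integrable_finsetSum _ fun i _ => (hg i).const_mul _
  have hF2e : (fun x => F x * F x) = fun x => ∑ i ∈ s, ∑ j ∈ s, σ i * σ j * (g i x * g j x) := by
    funext x
    simp only [F, Finset.sum_mul, Finset.mul_sum]
    exact Finset.sum_congr rfl fun i _ => Finset.sum_congr rfl fun j _ => by ring
  have hF2 : Integrable (fun x => F x * F x) μ := by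
    rw [hF2e]
    exact integrable_finsetSum _ fun i _ => integrable_finsetSum _ fun j _ =>
      (hgi i j).const_mul _
  have hsq : ∫ x, F x * F x ∂μ ≤ s.card + s.card * (s.card * (ε ^ 2 / 4)) := by
    rw [hF2e, integral_finsetSum _ fun i _ => integrable_finsetSum _ fun j _ =>
      (hgi i j).const_mul _]
    refine (Finset.sum_le_sum (g := fun _ => 1 + (s.card : ℝ) * (ε ^ 2 / 4))
      fun i hi => ?_).trans_eq (by
      rw [Finset.sum_const, nsmul_eq_mul, mul_add, mul_one])
    rw [integral_finsetSum _ fun j _ => (hgi i j).const_mul _]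
    refine (Finset.sum_le_sum (g := fun j => (if j = i then 1 else 0) + ε ^ 2 / 4)
      fun j hj => ?_).trans_eq (by
      rw [Finset.sum_add_distrib, Finset.sum_const, nsmul_eq_mul, Finset.sum_ite_eq', if_pos hi])
    rw [integral_const_mul, hval]
    refine (le_abs_self _).trans ?_
    rw [abs_mul, abs_mul, hσ, hσ, one_mul, one_mul]
    rcases eq_or_ne j i with rfl | hji
    · rw [if_pos rfl, Set.inter_self, ha]
      have h0 : 0 ≤ a := ha j ▸ measureReal_nonneg
      have h1 : a ≤ 1 := ha j ▸ measureReal_le_one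
      rw [abs_of_nonneg (by nlinarith)]
      nlinarith [sq_nonneg ε]
    · rw [if_neg hji, zero_add]
      exact hind i hi j hj (Ne.symm hji)
  have hlow : (s.card : ℝ) * ε ≤ ∫ x in B, F x ∂μ := by
    rw [integral_finsetSum _ fun i _ => ((hg i).const_mul _).integrableOn]
    refine le_of_eq_of_le (by rw [Finset.sum_const, nsmul_eq_mul]) (Finset.sum_le_sum fun i hi => ?_)
    rw [integral_const_mul, integral_sub (hind1 i).integrableOn (integrable_const a).integrableOn,
      setIntegral_indicator (hE i)]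
    simp only [setIntegral_const, smul_eq_mul, mul_one]
    refine (hbad i hi).trans (le_of_eq ?_)
    dsimp only [σ]
    split_ifs with h
    · rw [abs_of_nonneg h, one_mul]
    · rw [abs_of_neg (not_le.1 h), neg_one_mul]
  set lam : ℝ := s.card * ε with hlam
  have hl : 0 < lam := by rw [hlam]; positivity
  have hup : ∫ x in B, F x ∂μ ≤ (∫ x, F x * F x ∂μ) / (2 * lam) + lam / 2 := by
    rw [← integral_indicator hB]
    refine (integral_mono (hF.indicator hB) ((hF2.div_const (2 * lam)).add
      (integrable_const (lam / 2))) fun x => ?_).trans_eq ?_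
    · show B.indicator F x ≤ F x * F x / (2 * lam) + lam / 2
      have key : F x ≤ F x * F x / (2 * lam) + lam / 2 := by
        rw [div_add' _ _ _ (by positivity), le_div_iff₀ (by positivity)]
        nlinarith [sq_nonneg (F x - lam)]
      by_cases hx : x ∈ B
      · rwa [Set.indicator_of_mem hx]
      · rw [Set.indicator_of_notMem hx]
        have := mul_self_nonneg (F x)
        positivity
    · rw [integral_add' (hF2.div_const _) (integrable_const _), integral_div]
      simp
  have h := hlow.trans (hup.trans (add_le_add_left (div_le_div_of_nonneg_right hsq (by positivity)) _))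
  rw [le_div_iff₀ (by positivity)]
  rw [hlam] at h
  field_simp at h
  nlinarith [h, hM, hε]

variable {T : Ω ≃ᵐ Ω} (hT : MeasurePreserving T μ μ)
  (hmix : ∀ A B : Set Ω, MeasurableSet A → MeasurableSet B →
    Tendsto (fun n : ℕ => μ.real (A ∩ (T^[n]) ⁻¹' B)) atTop (𝓝 (μ.real A * μ.real B)))

include hT hmix

/-- The number of times with a bad correlation is bounded uniformly in the other set. -/
theorem exists_bound_bad_times (A : Set Ω) (hA : MeasurableSet A) (ε : ℝ) (hε : 0 < ε) :
    ∃ C : ℕ, ∀ B : Set Ω, MeasurableSet B → ∀ s : Finset ℤ,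
      (∀ n ∈ s, ε ≤ |μ.real (B ∩ ⇑((T.toEquiv : Equiv.Perm Ω) ^ n) ⁻¹' A)
        - μ.real B * μ.real A|) → s.card ≤ C := by
  classical
  set E : ℤ → Set Ω := fun n => ⇑((T.toEquiv : Equiv.Perm Ω) ^ n) ⁻¹' A with hEdef
  have hEm : ∀ n, MeasurableSet (E n) := fun n => (mp_zpow hT n).measurable hA
  have hEa : ∀ n, μ.real (E n) = μ.real A := fun n =>
    (mp_zpow hT n).measureReal_preimage hA.nullMeasurableSet
  obtain ⟨L, hL⟩ := Metric.tendsto_atTop.1 (hmix A A hA hA) (ε ^ 2 / 4) (by positivity)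
  have hpair : ∀ m n : ℤ, (L : ℤ) + 1 ≤ n - m →
      |μ.real (E m ∩ E n) - μ.real A * μ.real A| ≤ ε ^ 2 / 4 := by
    intro m n hmn
    obtain ⟨d, hd⟩ := Int.eq_ofNat_of_zero_le (show 0 ≤ n - m by omega)
    have he : E n = ⇑((T.toEquiv : Equiv.Perm Ω) ^ m) ⁻¹' ((T^[d]) ⁻¹' A) := by
      rw [hEdef, ← Set.preimage_comp]
      show ⇑((T.toEquiv : Equiv.Perm Ω) ^ n) ⁻¹' A = _
      rw [show n = (d : ℤ) + m by omega, zpow_add, Equiv.Perm.coe_mul, zpow_natCast,
        Equiv.Perm.coe_pow]
      rfl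
    rw [he, show E m = ⇑((T.toEquiv : Equiv.Perm Ω) ^ m) ⁻¹' A from rfl, ← Set.preimage_inter,
      (mp_zpow hT m).measureReal_preimage
        (hA.inter (hA.preimage (T.measurable.iterate d))).nullMeasurableSet]
    have := hL d (by omega)
    rw [Real.dist_eq] at this
    exact this.le
  refine ⟨(L + 1) * ⌊2 / ε ^ 2⌋₊, fun B hB s hs => ?_⟩
  have hL0 : (0 : ℤ) < (L : ℤ) + 1 := by omega
  let r : ℤ → ℕ := fun n => (n % ((L : ℤ) + 1)).toNat
  have hcl : ∀ c ∈ Finset.range (L + 1), (s.filter fun n => r n = c).card ≤ ⌊2 / ε ^ 2⌋₊ := by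
    intro c _
    refine Nat.le_floor (card_le_of_almost_indep μ _ E _ B hEm hB hEa hε ?_ ?_)
    · intro i hi j hj hij
      have hi' := (Finset.mem_filter.1 hi).2
      have hj' := (Finset.mem_filter.1 hj).2
      have hmod : i % ((L : ℤ) + 1) = j % ((L : ℤ) + 1) := by
        have h1 := Int.emod_nonneg i hL0.ne'
        have h2 := Int.emod_nonneg j hL0.ne'
        simp only [r] at hi' hj'
        omega
      obtain ⟨q, hq⟩ := Int.modEq_iff_dvd.1 hmod
      rcases lt_trichotomy q 0 with hq0 | hq0 | hq0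
      · rw [Set.inter_comm]
        exact hpair j i (by nlinarith)
      · exact absurd (by rw [hq0, mul_zero] at hq; omega) hij
      · exact hpair i j (by nlinarith)
    · exact fun i hi => hs i (Finset.mem_filter.1 hi).1
  have hmap : ∀ n ∈ s, r n ∈ Finset.range (L + 1) := fun n _ => by
    have := Int.emod_lt_of_pos n hL0
    simp only [r, Finset.mem_range]
    omega
  calc s.card = ∑ c ∈ Finset.range (L + 1), (s.filter fun n => r n = c).card :=
        Finset.card_eq_sum_card_fiberwise hmap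
    _ ≤ ∑ _c ∈ Finset.range (L + 1), ⌊2 / ε ^ 2⌋₊ := Finset.sum_le_sum hcl
    _ = (L + 1) * ⌊2 / ε ^ 2⌋₊ := by rw [Finset.sum_const, Finset.card_range, smul_eq_mul]

/-- Few bad configurations in products of finite sets. -/
theorem exists_bound_bad_configurations : ∀ (k : ℕ) (A₀ : Set Ω) (A : Fin k → Set Ω),
    MeasurableSet A₀ → (∀ i, MeasurableSet (A i)) → ∀ ε : ℝ, 0 < ε →
    ∃ C : ℕ, ∀ N : ℕ, ∀ J : Fin k → Finset ℤ, (∀ i, (J i).card ≤ N) →
      {u : Fin k → ℤ | (∀ i, u i ∈ J i) ∧
        ε ≤ |μ.real (A₀ ∩ ⋂ i, ⇑((T.toEquiv : Equiv.Perm Ω) ^ u i) ⁻¹' A i)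
          - μ.real A₀ * ∏ i, μ.real (A i)|}.ncard ≤ C * N ^ (k - 1) := by
  classical
  intro k
  induction k with
  | zero =>
    intro A₀ A _ _ ε hε
    refine ⟨0, fun N J _ => ?_⟩
    rw [zero_mul, Nat.le_zero]
    convert Set.ncard_empty (Fin 0 → ℤ)
    ext u
    simp [hε]
  | succ k ih =>
    intro A₀ A hA₀ hA ε hε
    obtain ⟨C₁, hC₁⟩ := ih A₀ (fun i => A i.castSucc) hA₀ (fun i => hA _) (ε / 2) (half_pos hε)
    obtain ⟨C₂, hC₂⟩ := exists_bound_bad_times μ hT hmix (A (Fin.last k)) (hA _) (ε / 2)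
      (half_pos hε)
    refine ⟨C₁ + C₂, fun N J hJ => ?_⟩
    let B : (Fin k → ℤ) → Set Ω := fun v =>
      A₀ ∩ ⋂ i : Fin k, ⇑((T.toEquiv : Equiv.Perm Ω) ^ v i) ⁻¹' A i.castSucc
    let P : Finset (Fin k → ℤ) := Fintype.piFinset fun i => J i.castSucc
    let bad : Finset (Fin k → ℤ) := P.filter fun v =>
      ε / 2 ≤ |μ.real (B v) - μ.real A₀ * ∏ i : Fin k, μ.real (A i.castSucc)|
    let line : (Fin k → ℤ) → Finset ℤ := fun v => (J (Fin.last k)).filter fun n =>
      ε / 2 ≤ |μ.real (B v ∩ ⇑((T.toEquiv : Equiv.Perm Ω) ^ n) ⁻¹' A (Fin.last k))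
        - μ.real (B v) * μ.real (A (Fin.last k))|
    let G : Finset (Fin (k + 1) → ℤ) :=
      (bad ×ˢ J (Fin.last k)).image (fun p => Fin.snoc p.1 p.2) ∪
        P.biUnion fun v => (line v).image fun n => Fin.snoc v n
    have hsub : {u : Fin (k + 1) → ℤ | (∀ i, u i ∈ J i) ∧
        ε ≤ |μ.real (A₀ ∩ ⋂ i, ⇑((T.toEquiv : Equiv.Perm Ω) ^ u i) ⁻¹' A i)
          - μ.real A₀ * ∏ i, μ.real (A i)|} ⊆ ↑G := by
      rintro u ⟨huJ, hu⟩
      obtain ⟨v, n, rfl⟩ : ∃ v n, u = Fin.snoc v n :=
        ⟨Fin.init u, u (Fin.last k), (Fin.snoc_init_self u).symm⟩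
      have hvP : v ∈ P := Fintype.mem_piFinset.2 fun i => by simpa using huJ i.castSucc
      have hn : n ∈ J (Fin.last k) := by simpa using huJ (Fin.last k)
      have hset : A₀ ∩ ⋂ i, ⇑((T.toEquiv : Equiv.Perm Ω) ^ (Fin.snoc v n : Fin (k + 1) → ℤ) i)
          ⁻¹' A i = B v ∩ ⇑((T.toEquiv : Equiv.Perm Ω) ^ n) ⁻¹' A (Fin.last k) := by
        ext x
        simp [B, Fin.forall_fin_succ', and_assoc]
      rw [hset, Fin.prod_univ_castSucc] at hu
      simp only [G, Finset.coe_union, Set.mem_union, Finset.mem_coe]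
      by_cases hv : v ∈ bad
      · exact Or.inl (Finset.mem_image.2 ⟨(v, n), Finset.mem_product.2 ⟨hv, hn⟩, rfl⟩)
      · refine Or.inr (Finset.mem_biUnion.2 ⟨v, hvP, Finset.mem_image.2 ⟨n, ?_, rfl⟩⟩)
        simp only [bad, Finset.mem_filter, hvP, true_and, not_le] at hv
        refine Finset.mem_filter.2 ⟨hn, ?_⟩
        by_contra hlt
        rw [not_le] at hlt
        set x := μ.real (B v ∩ ⇑((T.toEquiv : Equiv.Perm Ω) ^ n) ⁻¹' A (Fin.last k))
        set b := μ.real (B v)
        set a := μ.real (A (Fin.last k))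
        set p := μ.real A₀ * ∏ i, μ.real (A (Fin.castSucc i)) with hp
        rw [← mul_assoc, ← hp, show x - p * a = (x - b * a) + a * (b - p) by ring] at hu
        have h1 := hu.trans (abs_add_le _ _)
        have ha0 : 0 ≤ a := measureReal_nonneg
        have ha1 : a ≤ 1 := measureReal_le_one
        rw [abs_mul, abs_of_nonneg ha0] at h1
        have h2 := mul_le_of_le_one_left (abs_nonneg (b - p)) ha1
        linarith
    have hB : ∀ v, MeasurableSet (B v) := fun v =>
      hA₀.inter (MeasurableSet.iInter fun i => (mp_zpow hT _).measurable (hA _))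
    have hP : P.card ≤ N ^ k := by
      rw [Fintype.card_piFinset]
      refine (Finset.prod_le_prod' fun i _ => hJ i.castSucc).trans_eq ?_
      rw [Finset.prod_const, Finset.card_univ, Fintype.card_fin]
    have hbad : bad.card * (J (Fin.last k)).card ≤ C₁ * N ^ k := by
      have hb := hC₁ N (fun i => J (Fin.castSucc i)) (fun i => hJ _)
      have he : ((bad : Finset (Fin k → ℤ)) : Set (Fin k → ℤ)) = {u | (∀ i, u i ∈ J (Fin.castSucc i)) ∧
          ε / 2 ≤ |μ.real (B u) - μ.real A₀ * ∏ i, μ.real (A (Fin.castSucc i))|} := by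
        ext u
        simp [bad, P, Fintype.mem_piFinset]
      rw [← he, Set.ncard_coe_finset] at hb
      rcases Nat.eq_zero_or_pos k with rfl | hk
      · have h0 : bad.card = 0 := Finset.card_eq_zero.2 (Finset.filter_eq_empty_iff.2 fun v _ => by
          simp [B, hε])
        simp [h0]
      · calc bad.card * (J (Fin.last k)).card ≤ C₁ * N ^ (k - 1) * N := Nat.mul_le_mul hb (hJ _)
          _ = C₁ * N ^ k := by
            rw [mul_assoc, ← pow_succ, show k - 1 + 1 = k by omega]
    refine (Set.ncard_le_ncard hsub G.finite_toSet).trans ?_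
    rw [Set.ncard_coe_finset, add_tsub_cancel_right, add_mul]
    refine (Finset.card_union_le _ _).trans (add_le_add ?_ ?_)
    · exact Finset.card_image_le.trans ((Finset.card_product _ _).trans_le hbad)
    · refine (Finset.card_biUnion_le_card_mul _ _ C₂ fun v _ => ?_).trans
        ((Nat.mul_le_mul_right C₂ hP).trans_eq (mul_comm _ _))
      exact Finset.card_image_le.trans
        (hC₂ (B v) (hB v) (line v) fun n hn => (Finset.mem_filter.1 hn).2)

omit hT hmix

theorem result : ∀ (Ω : Type) [MeasurableSpace Ω] (μ : Measure Ω) [IsProbabilityMeasure μ]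
    (T : Ω ≃ᵐ Ω), MeasurePreserving T μ μ →
    (∀ A B : Set Ω, MeasurableSet A → MeasurableSet B →
      Tendsto (fun n : ℕ => μ.real (A ∩ (T^[n]) ⁻¹' B)) atTop (𝓝 (μ.real A * μ.real B))) →
    (∀ (A : Set Ω) (ε : ℝ), MeasurableSet A → 0 < ε → ∃ C : ℕ, ∀ B : Set Ω, MeasurableSet B →
      ∀ s : Finset ℤ, (∀ n ∈ s, ε ≤ |μ.real (B ∩ ⇑((T.toEquiv : Equiv.Perm Ω) ^ n) ⁻¹' A)
        - μ.real B * μ.real A|) → s.card ≤ C) ∧
    ∀ (k : ℕ) (A₀ : Set Ω) (A : Fin k → Set Ω), MeasurableSet A₀ → (∀ i, MeasurableSet (A i)) →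
      ∀ ε : ℝ, 0 < ε → ∃ C : ℕ, ∀ N : ℕ, ∀ J : Fin k → Finset ℤ, (∀ i, (J i).card ≤ N) →
        {u : Fin k → ℤ | (∀ i, u i ∈ J i) ∧
          ε ≤ |μ.real (A₀ ∩ ⋂ i, ⇑((T.toEquiv : Equiv.Perm Ω) ^ u i) ⁻¹' A i)
            - μ.real A₀ * ∏ i, μ.real (A i)|}.ncard ≤ C * N ^ (k - 1) := by
  intro Ω _ μ _ T hT hmix
  exact ⟨fun A ε hA hε => exists_bound_bad_times μ hT hmix A hA ε hε,
    exists_bound_bad_configurations μ hT hmix⟩

end Vale.Agent.Results.P102.FewBadConfigurations
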