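import Vale.Agent.P102.Determinant

/-!
# P102: a parity gap for mixing maps

For a mixing map, the parity of `k` far separated translates of `k` sets is not almost constant,
as soon as one of the sets is nontrivial.
-/

noncomputable section

namespace Vale.Agent.Results.P102.ParityGap

open MeasureTheory Filter Topology
open Vale.Agent.P102

/-- Parities of far separated translates are never almost constant. -/
theorem result {Ω : Type*} [MeasurableSpace Ω] (μ : Measure Ω) [IsProbabilityMeasure μ]
    (T : Ω ≃ᵐ Ω) (hT : MeasurePreserving T μ μ)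
    (hmix : ∀ A B : Set Ω, MeasurableSet A → MeasurableSet B →
      Tendsto (fun n : ℕ => μ.real (A ∩ (T^[n]) ⁻¹' B)) atTop (𝓝 (μ.real A * μ.real B)))
    (k : ℕ) (A : Fin k → Set Ω) (hA : ∀ i, MeasurableSet (A i))
    (η : ℝ) (hη : 400 * (k.factorial : ℝ) ^ 7 * η ≤ 1)
    (hne : ∃ c, 4 * ((k.factorial : ℝ) * η) < μ.real (A c) ∧
      μ.real (A c) < 1 - 4 * ((k.factorial : ℝ) * η)) :
    ∃ L : ℕ, ∀ t : Fin k → ℤ, (∀ i j, i ≠ j → (L : ℤ) ≤ |t i - t j|) →
      η < μ.real {x | Odd (Nat.card {i : Fin k // ⇑((T.toEquiv : Equiv.Perm Ω) ^ t i) x ∈ A i})} ∧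
      μ.real {x | Odd (Nat.card {i : Fin k // ⇑((T.toEquiv : Equiv.Perm Ω) ^ t i) x ∈ A i})}
        < 1 - η := by
  classical
  obtain ⟨c, hc₀, hc₁⟩ := hne
  have hM : IsMixing μ T := ⟨hT, hmix⟩
  by_contra hcon
  simp only [not_exists, not_forall] at hcon
  choose tau htau hbad using hcon
  have hodd : ∀ L, {x | Odd (Nat.card {i : Fin k //
      ⇑((T.toEquiv : Equiv.Perm Ω) ^ tau L i) x ∈ A i})} =
      {x | defectMulti T (tau L) 0 A x ≠ 0} := by
    intro L
    ext x
    have hsum : (∑ i, ind (A i) (shift T (tau L i) x)) =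
        (Nat.card {i : Fin k // shift T (tau L i) x ∈ A i} : ZMod 2) := by
      rw [Nat.card_eq_fintype_card, Fintype.card_subtype]
      simp [ind, Set.indicator_apply]
    show Odd (Nat.card {i : Fin k // shift T (tau L i) x ∈ A i}) ↔
      defectMulti T (tau L) 0 A x ≠ 0
    rw [defectMulti, zero_add, hsum, Ne, ZMod.natCast_eq_zero_iff_even, Nat.not_even_iff_odd]
  have hcompl : ∀ L, {x | defectMulti T (tau L) 1 A x ≠ 0} =
      {x | defectMulti T (tau L) 0 A x ≠ 0}ᶜ := by
    intro L
    ext x
    show defectMulti T (tau L) 1 A x ≠ 0 ↔ ¬ defectMulti T (tau L) 0 A x ≠ 0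
    simp only [defectMulti, zero_add]
    generalize ∑ i, ind (A i) (shift T (tau L i) x) = z
    revert z
    decide
  have hsmall : ∀ L, ∃ b : ZMod 2, μ.real {x | defectMulti T (tau L) b A x ≠ 0} ≤ η := by
    intro L
    have h := hbad L
    rw [hodd L, not_and_or, not_lt, not_lt] at h
    rcases h with h | h
    · exact ⟨0, h⟩
    · refine ⟨1, ?_⟩
      have hm : MeasurableSet {x | defectMulti T (tau L) 0 A x ≠ 0} := by
        have hf : Measurable (defectMulti T (tau L) 0 A) :=
          (measurable_of_countable (fun w : Fin k → ZMod 2 => (0 : ZMod 2) + ∑ i, w i)).comp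
            (measurable_pi_lambda (fun x i => ind (A i) (shift T (tau L i) x))
              fun i => (measurable_ind (hA i)).comp (mp_shift hM _).measurable)
        exact hf (MeasurableSet.singleton (0 : ZMod 2)).compl
      rw [hcompl, probReal_compl_eq_one_sub hm]
      linarith
  choose b hb using hsmall
  rcases parity_gap_multi hM tau htau b A hA η hb hη c with h | h <;> linarith

end Vale.Agent.Results.P102.ParityGap
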